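import Vale.Agent.P362.H32.Final

/-!
# P362: the exponent is 4, and the joint range of quantum and randomized query complexity
-/

open Vale.Agent.P362.Stmt

/-- (1) `α_tot = 4`, attained, and no smaller exponent works; (2) every pair `1 ≤ q ≤ r ≤ q ^ 4`
is, up to a factor `2^(A √(log₂ q))`, the pair `(Q f, R f)` of some total function `f`, which
moreover has a deterministic decision tree of depth at most `r`. -/
theorem Vale.Agent.Results.P362.JointRange.result :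
    (alphaTot = 4 ∧ PolyBound 4 ∧ ∀ α < 4, ¬ PolyBound α) ∧
    ∃ A : ℝ, ∀ q r : ℕ, 1 ≤ q → q ≤ r → r ≤ q ^ 4 →
      ∃ n : ℕ, 1 ≤ n ∧ ∃ f : (Fin n → Bool) → Bool,
        (q : ℝ) / 2 ^ (A * √(Real.logb 2 q)) ≤ Q f ∧ Q f ≤ q ∧
        (r : ℝ) / 2 ^ (A * √(Real.logb 2 q)) ≤ R f ∧ R f ≤ r ∧
        ∃ t : Vale.Agent.P362.Stmt.Tree (Fin n), t.depth ≤ r ∧ ∀ x, t.eval x = f x := by
  refine ⟨⟨alphaTot_eq.trans (Vale.Agent.P362.alphaTot_eq Vale.Agent.P362.polyBound_four),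
    (polyBound_iff 4).2 Vale.Agent.P362.polyBound_four,
    fun α hα h => Vale.Agent.P362.not_polyBound α hα ((polyBound_iff α).1 h)⟩, ?_⟩
  obtain ⟨A, hA⟩ := Vale.Agent.P362.H32.joint
  refine ⟨A, fun q r h1 h2 h3 => ?_⟩
  obtain ⟨n, hn, f, h4, h5, h6, t, ht, he⟩ := hA q r h1 h2 h3
  refine ⟨n, hn, f, ?_, ?_, ?_, ?_, ofDT t, ?_, fun x => ?_⟩
  · rw [Q_eq]
    exact h4
  · rw [Q_eq]
    exact_mod_cast h5
  · rw [R_eq]
    exact h6
  · rw [R_eq]
    exact Nat.sInf_le (Vale.Agent.P362.Tr.rand_of_tree f t r ht he)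
  · rw [depth_ofDT]
    exact ht
  · rw [eval_ofDT]
    exact he x
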