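import Vale.Agent.P362.H4.Final

/-!
# P362: the exponent is 4, with a rate: `R` is `Q ^ 4` up to `2 ^ O(√ log Q)`, for every budget
-/

open Vale.Agent.P362.Stmt

/-- (1) `α_tot = 4`, attained, and no smaller exponent works; (2) for every `q ≥ 1` there is a
total function with `q / 2^(A √(log₂ q)) ≤ Q f ≤ q` and `R f ≥ q ^ 4 / 2^(A √(log₂ q))`. -/
theorem Vale.Agent.Results.P362.QuarticRate.result :
    (alphaTot = 4 ∧ PolyBound 4 ∧ ∀ α < 4, ¬ PolyBound α) ∧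
    ∃ A : ℝ, ∀ q : ℕ, 1 ≤ q → ∃ n : ℕ, 1 ≤ n ∧ ∃ f : (Fin n → Bool) → Bool,
      (q : ℝ) / 2 ^ (A * √(Real.logb 2 q)) ≤ Q f ∧ (Q f : ℝ) ≤ q ∧
      (q : ℝ) ^ 4 / 2 ^ (A * √(Real.logb 2 q)) ≤ R f := by
  refine ⟨⟨alphaTot_eq.trans (Vale.Agent.P362.alphaTot_eq Vale.Agent.P362.polyBound_four),
    (polyBound_iff 4).2 Vale.Agent.P362.polyBound_four,
    fun α hα h => Vale.Agent.P362.not_polyBound α hα ((polyBound_iff α).1 h)⟩, ?_⟩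
  obtain ⟨A, hA⟩ := Vale.Agent.P362.H4.rate
  refine ⟨A, fun q hq => ?_⟩
  obtain ⟨n, hn, f, h1, h2, h3⟩ := hA q hq
  refine ⟨n, hn, f, ?_, ?_, ?_⟩
  · rw [Q_eq]
    exact h1
  · rw [Q_eq]
    exact h2
  · rw [R_eq]
    exact h3
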